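import Mathlib

open scoped ENNReal NNReal
open Finset Filter Topology

namespace Vale.Agent.Results.P057.UniversalSet

/-- `A` contains a `k`-term arithmetic progression with positive common difference. -/
def HasAP (k : ℕ) (A : Set ℕ) : Prop := ∃ a d : ℕ, 0 < d ∧ ∀ i < k, a + i * d ∈ A

/-- `r_k(N)`: the largest size of a subset of `{1,...,N}` without `k`-term progression. -/
noncomputable def r (k N : ℕ) : ℕ :=
  sSup {m : ℕ | ∃ S : Finset ℕ, S ⊆ Finset.Icc 1 N ∧ ¬ HasAP k (S : Set ℕ) ∧ S.card = m}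

lemma bdd (k N : ℕ) :
    BddAbove {m : ℕ | ∃ S : Finset ℕ, S ⊆ Finset.Icc 1 N ∧ ¬ HasAP k (S : Set ℕ) ∧ S.card = m} := by
  refine ⟨N, ?_⟩
  rintro m ⟨S, hS, -, rfl⟩
  simpa using Finset.card_le_card hS

lemma card_le_r {k N : ℕ} {S : Finset ℕ} (hS : S ⊆ Finset.Icc 1 N) (hAP : ¬ HasAP k (S : Set ℕ)) :
    S.card ≤ r k N :=
  le_csSup (bdd k N) ⟨S, hS, hAP, rfl⟩

lemma exists_extremal {k : ℕ} (hk : 0 < k) (N : ℕ) :
    ∃ S : Finset ℕ, S ⊆ Finset.Icc 1 N ∧ ¬ HasAP k (S : Set ℕ) ∧ S.card = r k N := by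
  have hne : {m : ℕ | ∃ S : Finset ℕ, S ⊆ Finset.Icc 1 N ∧ ¬ HasAP k (S : Set ℕ) ∧ S.card = m}.Nonempty := by
    refine ⟨0, ∅, by simp, ?_, by simp⟩
    rintro ⟨a, d, -, h⟩
    simpa using h 0 hk
  exact Nat.sSup_mem hne (bdd k N)

lemma HasAP.mono {k : ℕ} {A B : Set ℕ} (h : A ⊆ B) (hA : HasAP k A) : HasAP k B := by
  obtain ⟨a, d, hd, H⟩ := hA
  exact ⟨a, d, hd, fun i hi => h (H i hi)⟩

/-- a progression-free finite set inside a window of length `N` has at most `r k N` elements -/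
lemma card_le_r_window {k N x : ℕ} {S : Finset ℕ} (hS : S ⊆ Finset.Icc (x + 1) (x + N))
    (hAP : ¬ HasAP k (S : Set ℕ)) : S.card ≤ r k N := by
  have hinj : Set.InjOn (fun a => a - x) (S : Set ℕ) := by
    intro a ha b hb hab
    have h1 := Finset.mem_Icc.mp (hS ha)
    have h2 := Finset.mem_Icc.mp (hS hb)
    simp only at hab
    omega
  rw [← Finset.card_image_of_injOn hinj]
  apply card_le_r
  · intro b hb
    obtain ⟨a, ha, rfl⟩ := Finset.mem_image.mp hb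
    have h1 := Finset.mem_Icc.mp (hS ha)
    rw [Finset.mem_Icc]
    omega
  · rintro ⟨a, d, hd, H⟩
    apply hAP
    refine ⟨a + x, d, hd, fun i hi => ?_⟩
    have := H i hi
    rw [Finset.mem_coe, Finset.mem_image] at this
    obtain ⟨c, hc, hce⟩ := this
    have h1 := Finset.mem_Icc.mp (hS hc)
    have : a + x + i * d = c := by omega
    rw [this]
    exact hc

lemma r_mono (k : ℕ) {N M : ℕ} (h : N ≤ M) (hk : 0 < k) : r k N ≤ r k M := by
  obtain ⟨S, hS, hAP, hc⟩ := exists_extremal hk N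
  rw [← hc]
  exact card_le_r (hS.trans (Finset.Icc_subset_Icc le_rfl h)) hAP

lemma r_add_le (k : ℕ) (hk : 0 < k) (N M : ℕ) : r k (N + M) ≤ r k N + r k M := by
  classical
  obtain ⟨S, hS, hAP, hc⟩ := exists_extremal hk (N + M)
  rw [← hc, ← Finset.card_filter_add_card_filter_not (s := S) (fun a => a ≤ N)]
  apply add_le_add
  · apply card_le_r
    · intro a ha
      rw [Finset.mem_filter] at ha
      have := Finset.mem_Icc.mp (hS ha.1)
      rw [Finset.mem_Icc]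
      omega
    · intro h
      exact hAP (h.mono (by intro a ha; exact (Finset.mem_filter.mp ha).1))
  · apply card_le_r_window (x := N)
    · intro a ha
      rw [Finset.mem_filter] at ha
      have := Finset.mem_Icc.mp (hS ha.1)
      rw [Finset.mem_Icc]
      omega
    · intro h
      exact hAP (h.mono (by intro a ha; exact (Finset.mem_filter.mp ha).1))

lemma r_two_mul_le (k : ℕ) (hk : 0 < k) (N : ℕ) : r k (2 * N) ≤ 2 * r k N := by
  have := r_add_le k hk N N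
  rw [two_mul, two_mul]
  exact this

lemma r_le (k N : ℕ) : r k N ≤ N := by
  apply csSup_le'
  rintro m ⟨S, hS, -, rfl⟩
  simpa using Finset.card_le_card hS


lemma upper {k : ℕ} (w : ℕ → ℝ≥0∞) (hw : Antitone w) (A : Set ℕ)
    (hpos : ∀ a ∈ A, 0 < a) (hAP : ¬ HasAP k A) :
    ∑' a : A, w a ≤ ∑' n, (r k (2 ^ n) : ℝ≥0∞) * w (2 ^ n) := by
  classical
  rw [tsum_subtype A w, ENNReal.tsum_eq_iSup_sum]
  apply iSup_le
  intro s
  set s' := s.filter (· ∈ A) with hs'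
  have h1 : ∑ a ∈ s, A.indicator w a = ∑ a ∈ s', w a := by
    rw [hs', Finset.sum_filter]
    refine Finset.sum_congr rfl fun a _ => ?_
    simp [Set.indicator_apply]
  rw [h1]
  set M := s'.sup (Nat.log 2) + 1 with hM
  have hmaps : ∀ a ∈ s', Nat.log 2 a ∈ Finset.range M := by
    intro a ha
    rw [Finset.mem_range, hM]
    exact Nat.lt_succ_of_le (Finset.le_sup (f := Nat.log 2) ha)
  rw [← Finset.sum_fiberwise_of_maps_to hmaps]
  refine le_trans (Finset.sum_le_sum fun n _ => ?_) (ENNReal.sum_le_tsum (Finset.range M))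
  have hmem : ∀ a ∈ s'.filter (fun a => Nat.log 2 a = n), 2 ^ n ≤ a ∧ a < 2 ^ (n + 1) := by
    intro a ha
    rw [Finset.mem_filter] at ha
    have hA : a ∈ A := (Finset.mem_filter.mp ha.1).2
    have h0 : a ≠ 0 := (hpos a hA).ne'
    refine ⟨?_, ?_⟩
    · rw [← ha.2]; exact Nat.pow_log_le_self 2 h0
    · rw [← ha.2]; exact Nat.lt_pow_succ_log_self (by norm_num) a
  have hcard : (s'.filter (fun a => Nat.log 2 a = n)).card ≤ r k (2 ^ n) := by
    apply card_le_r_window (x := 2 ^ n - 1)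
    · intro a ha
      have := hmem a ha
      have hp : 0 < 2 ^ n := by positivity
      rw [Finset.mem_Icc]
      rw [pow_succ] at this
      omega
    · intro h
      apply hAP
      refine h.mono ?_
      intro a ha
      exact (Finset.mem_filter.mp (Finset.mem_filter.mp ha).1).2
  calc ∑ a ∈ s'.filter (fun a => Nat.log 2 a = n), w a
      ≤ (s'.filter (fun a => Nat.log 2 a = n)).card • w (2 ^ n) :=
        Finset.sum_le_card_nsmul _ _ _ fun a ha => hw (hmem a ha).1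
    _ = ((s'.filter (fun a => Nat.log 2 a = n)).card : ℝ≥0∞) * w (2 ^ n) := by
        rw [nsmul_eq_mul]
    _ ≤ (r k (2 ^ n) : ℝ≥0∞) * w (2 ^ n) := by
        gcongr


/-- the translated extremal blocks -/
lemma exists_blocks {k : ℕ} (hk : 0 < k) :
    ∃ T : ℕ → Finset ℕ, (∀ j, ∀ a ∈ T j, 2 * 4 ^ j < a ∧ a ≤ 3 * 4 ^ j) ∧
      (∀ j, ¬ HasAP k (T j : Set ℕ)) ∧ (∀ j, (T j).card = r k (4 ^ j)) := by
  classical
  choose S hS hAP hc using fun j : ℕ => exists_extremal hk (4 ^ j)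
  refine ⟨fun j => (S j).image (· + 2 * 4 ^ j), ?_, ?_, ?_⟩
  · intro j a ha
    obtain ⟨b, hb, rfl⟩ := Finset.mem_image.mp ha
    have := Finset.mem_Icc.mp (hS j hb)
    omega
  · rintro j ⟨a, d, hd, H⟩
    apply hAP j
    have h0 := H 0 hk
    rw [Finset.mem_coe, Finset.mem_image] at h0
    obtain ⟨b, hb, hbe⟩ := h0
    refine ⟨a - 2 * 4 ^ j, d, hd, fun i hi => ?_⟩
    have := H i hi
    rw [Finset.mem_coe, Finset.mem_image] at this
    obtain ⟨c, hc', hce⟩ := this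
    have : a - 2 * 4 ^ j + i * d = c := by
      omega
    rw [this]
    exact hc'
  · intro j
    rw [Finset.card_image_of_injective _ (add_left_injective _), hc]

lemma block_unique {T : ℕ → Finset ℕ} (hT : ∀ j, ∀ a ∈ T j, 2 * 4 ^ j < a ∧ a ≤ 3 * 4 ^ j)
    {a j J : ℕ} (ha : a ∈ T j) (h1 : 4 ^ J < a) (h2 : a ≤ 3 * 4 ^ J) : j = J := by
  obtain ⟨h3, h4⟩ := hT j a ha
  rcases lt_trichotomy j J with h | h | h
  · have : 4 ^ (j + 1) ≤ 4 ^ J := Nat.pow_le_pow_right (by norm_num) h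
    rw [pow_succ] at this
    omega
  · exact h
  · have : 4 ^ (J + 1) ≤ 4 ^ j := Nat.pow_le_pow_right (by norm_num) h
    rw [pow_succ] at this
    omega

lemma union_noAP {k : ℕ} (hk : 3 ≤ k) {T : ℕ → Finset ℕ}
    (hT : ∀ j, ∀ a ∈ T j, 2 * 4 ^ j < a ∧ a ≤ 3 * 4 ^ j)
    (hAP : ∀ j, ¬ HasAP k (T j : Set ℕ)) : ¬ HasAP k {a | ∃ j, a ∈ T j} := by
  rintro ⟨a, d, hd, H⟩
  obtain ⟨J, hJ⟩ := H (k - 1) (by omega)
  obtain ⟨hz1, hz2⟩ := hT J _ hJ
  -- the last but one term lies in the same block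
  obtain ⟨j1, hj1⟩ := H (k - 2) (by omega)
  obtain ⟨j2, hj2⟩ := H (k - 3) (by omega)
  have e1 : a + (k - 1) * d = a + (k - 2) * d + d := by
    have : k - 1 = (k - 2) + 1 := by omega
    rw [this]; ring
  have e2 : a + (k - 2) * d = a + (k - 3) * d + d := by
    have : k - 2 = (k - 3) + 1 := by omega
    rw [this]; ring
  have hy : j1 = J := by
    apply block_unique hT hj1 <;> omega
  subst hy
  obtain ⟨hy1, hy2⟩ := hT j1 _ hj1
  have hd4 : d < 4 ^ j1 := by omega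
  -- downward induction
  have key : ∀ m, m ≤ k - 1 → a + (k - 1 - m) * d ∈ T j1 := by
    intro m
    induction m with
    | zero => intro _; simpa using hJ
    | succ m ih =>
      intro hm
      have h1 := ih (by omega)
      obtain ⟨h3, h4⟩ := hT j1 _ h1
      obtain ⟨j', hj'⟩ := H (k - 1 - (m + 1)) (by omega)
      have e : a + (k - 1 - m) * d = a + (k - 1 - (m + 1)) * d + d := by
        have : k - 1 - m = (k - 1 - (m + 1)) + 1 := by omega
        rw [this]; ring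
      have : j' = j1 := by
        apply block_unique hT hj' <;> omega
      rw [← this]
      exact hj'
  apply hAP j1
  refine ⟨a, d, hd, fun i hi => ?_⟩
  have := key (k - 1 - i) (by omega)
  have e : k - 1 - (k - 1 - i) = i := by omega
  rw [e] at this
  exact this


lemma blocks_sum_le {k : ℕ} {T : ℕ → Finset ℕ}
    (hT : ∀ j, ∀ a ∈ T j, 2 * 4 ^ j < a ∧ a ≤ 3 * 4 ^ j)
    (hc : ∀ j, (T j).card = r k (4 ^ j)) (w : ℕ → ℝ≥0∞) (hw : Antitone w) :
    ∑' j, (r k (4 ^ j) : ℝ≥0∞) * w (4 ^ (j + 1)) ≤ ∑' a : {a | ∃ j, a ∈ T j}, w a := by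
  classical
  rw [tsum_subtype {a | ∃ j, a ∈ T j} w, ENNReal.tsum_eq_iSup_nat]
  apply iSup_le
  intro J
  have hdisj : Set.PairwiseDisjoint (↑(Finset.range J)) T := by
    intro i _ j _ hij
    rw [Function.onFun, Finset.disjoint_left]
    intro a hai haj
    apply hij
    obtain ⟨h1, h2⟩ := hT j a haj
    exact block_unique hT hai (by omega) h2
  calc ∑ j ∈ Finset.range J, (r k (4 ^ j) : ℝ≥0∞) * w (4 ^ (j + 1))
      ≤ ∑ j ∈ Finset.range J, ∑ a ∈ T j, w a := by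
        refine Finset.sum_le_sum fun j _ => ?_
        rw [← hc j, ← nsmul_eq_mul]
        refine Finset.card_nsmul_le_sum _ _ _ fun a ha => hw ?_
        have := (hT j a ha).2
        rw [pow_succ]
        omega
    _ = ∑ a ∈ (Finset.range J).biUnion T, w a := (Finset.sum_biUnion hdisj).symm
    _ = ∑ a ∈ (Finset.range J).biUnion T, Set.indicator {a | ∃ j, a ∈ T j} w a := by
        refine Finset.sum_congr rfl fun a ha => ?_
        obtain ⟨j, -, hj⟩ := Finset.mem_biUnion.mp ha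
        rw [Set.indicator_of_mem]
        exact ⟨j, hj⟩
    _ ≤ ∑' a, Set.indicator {a | ∃ j, a ∈ T j} w a := ENNReal.sum_le_tsum _

lemma tsum_split (f : ℕ → ℝ≥0∞) :
    ∑' n, f n = f 0 + (f 1 + (∑' j, f (2 * j + 2) + ∑' j, f (2 * j + 1 + 2))) := by
  have h1 : ∑' n, f n = f 0 + ∑' n, f (n + 1) := tsum_eq_zero_add' ENNReal.summable
  have h2 : ∑' n, f (n + 1) = f 1 + ∑' n, f (n + 2) :=
    tsum_eq_zero_add' (f := fun n => f (n + 1)) ENNReal.summable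
  have h3 : ∑' n, f (n + 2) = ∑' j, f (2 * j + 2) + ∑' j, f (2 * j + 1 + 2) :=
    (tsum_even_add_odd (f := fun n => f (n + 2)) ENNReal.summable ENNReal.summable).symm
  rw [h1, h2, h3]

lemma r_four_mul_le (k : ℕ) (hk : 0 < k) (N : ℕ) : r k (4 * N) ≤ 4 * r k N := by
  have a1 := r_two_mul_le k hk (2 * N)
  have a2 := r_two_mul_le k hk N
  have : 2 * (2 * N) = 4 * N := by ring
  rw [this] at a1
  omega

lemma r_eight_mul_le (k : ℕ) (hk : 0 < k) (N : ℕ) : r k (8 * N) ≤ 8 * r k N := by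
  have a1 := r_two_mul_le k hk (4 * N)
  have a2 := r_four_mul_le k hk N
  have : 2 * (4 * N) = 8 * N := by ring
  rw [this] at a1
  omega

lemma dyadic_le {k : ℕ} (hk : 0 < k) (w : ℕ → ℝ≥0∞) (hw : Antitone w) :
    ∑' n, (r k (2 ^ n) : ℝ≥0∞) * w (2 ^ n)
      ≤ 3 * w 1 + 12 * ∑' j, (r k (4 ^ j) : ℝ≥0∞) * w (4 ^ (j + 1)) := by
  rw [tsum_split]
  have h0 : (r k (2 ^ 0) : ℝ≥0∞) * w (2 ^ 0) ≤ 1 * w 1 := by
    rw [pow_zero]
    gcongr
    exact_mod_cast r_le k 1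
  have h1 : (r k (2 ^ 1) : ℝ≥0∞) * w (2 ^ 1) ≤ 2 * w 1 := by
    rw [pow_one]
    gcongr
    · exact_mod_cast r_le k 2
    · exact hw (by norm_num)
  have hpow : ∀ j : ℕ, 2 ^ (2 * j + 2) = 4 * 4 ^ j := by
    intro j
    rw [pow_add, pow_mul]; norm_num; ring
  have hpow' : ∀ j : ℕ, 2 ^ (2 * j + 1 + 2) = 8 * 4 ^ j := by
    intro j
    have : 2 * j + 1 + 2 = (2 * j + 2) + 1 := by ring
    rw [this, pow_succ, hpow j]; ring
  have e : ∀ j : ℕ, (4 : ℕ) ^ (j + 1) = 4 * 4 ^ j := by intro j; rw [pow_succ]; ring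
  have he : ∀ j, (r k (2 ^ (2 * j + 2)) : ℝ≥0∞) * w (2 ^ (2 * j + 2))
      ≤ 4 * ((r k (4 ^ j) : ℝ≥0∞) * w (4 ^ (j + 1))) := by
    intro j
    rw [hpow j, e j]
    calc (r k (4 * 4 ^ j) : ℝ≥0∞) * w (4 * 4 ^ j)
        ≤ ((4 * r k (4 ^ j) : ℕ) : ℝ≥0∞) * w (4 * 4 ^ j) := by
          gcongr
          exact r_four_mul_le k hk _
      _ = 4 * ((r k (4 ^ j) : ℝ≥0∞) * w (4 * 4 ^ j)) := by push_cast; ring
  have ho : ∀ j, (r k (2 ^ (2 * j + 1 + 2)) : ℝ≥0∞) * w (2 ^ (2 * j + 1 + 2))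
      ≤ 8 * ((r k (4 ^ j) : ℝ≥0∞) * w (4 ^ (j + 1))) := by
    intro j
    rw [hpow' j, e j]
    calc (r k (8 * 4 ^ j) : ℝ≥0∞) * w (8 * 4 ^ j)
        ≤ ((8 * r k (4 ^ j) : ℕ) : ℝ≥0∞) * w (4 * 4 ^ j) := by
          gcongr
          · exact r_eight_mul_le k hk _
          · exact hw (by omega)
      _ = 8 * ((r k (4 ^ j) : ℝ≥0∞) * w (4 * 4 ^ j)) := by push_cast; ring
  have s1 : ∑' j, (r k (2 ^ (2 * j + 2)) : ℝ≥0∞) * w (2 ^ (2 * j + 2))
      ≤ 4 * ∑' j, (r k (4 ^ j) : ℝ≥0∞) * w (4 ^ (j + 1)) := by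
    rw [← ENNReal.tsum_mul_left]
    exact ENNReal.tsum_le_tsum he
  have s2 : ∑' j, (r k (2 ^ (2 * j + 1 + 2)) : ℝ≥0∞) * w (2 ^ (2 * j + 1 + 2))
      ≤ 8 * ∑' j, (r k (4 ^ j) : ℝ≥0∞) * w (4 ^ (j + 1)) := by
    rw [← ENNReal.tsum_mul_left]
    exact ENNReal.tsum_le_tsum ho
  calc _ ≤ 1 * w 1 + (2 * w 1 + (4 * ∑' j, (r k (4 ^ j) : ℝ≥0∞) * w (4 ^ (j + 1))
          + 8 * ∑' j, (r k (4 ^ j) : ℝ≥0∞) * w (4 ^ (j + 1)))) :=
        add_le_add h0 (add_le_add h1 (add_le_add s1 s2))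
    _ = 3 * w 1 + 12 * ∑' j, (r k (4 ^ j) : ℝ≥0∞) * w (4 ^ (j + 1)) := by ring

lemma olivier (f : ℕ → ℝ) (hf : Antitone f) (h0 : ∀ n, 0 ≤ f n) (hs : Summable f) :
    Tendsto (fun n : ℕ => (n : ℝ) * f n) atTop (𝓝 0) := by
  have ht : Tendsto (fun i => ∑' k, f (k + i)) atTop (𝓝 0) := _root_.tendsto_sum_nat_add f
  have ht2 : Tendsto (fun n : ℕ => 2 * ∑' k, f (k + n / 2)) atTop (𝓝 0) := by
    have := (ht.comp (Nat.tendsto_div_const_atTop (n := 2) (by norm_num))).const_mul 2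
    simpa using this
  refine squeeze_zero (fun n => mul_nonneg (Nat.cast_nonneg n) (h0 n)) (fun n => ?_) ht2
  have hs' : Summable (fun k => f (k + n / 2)) := (summable_nat_add_iff (n / 2)).mpr hs
  have h1 : ∑ k ∈ Finset.range (n - n / 2 + 1), f (k + n / 2) ≤ ∑' k, f (k + n / 2) :=
    hs'.sum_le_tsum _ (fun k _ => h0 _)
  have h2 : ((n - n / 2 + 1 : ℕ) : ℝ) * f n ≤ ∑ k ∈ Finset.range (n - n / 2 + 1), f (k + n / 2) := by
    rw [← nsmul_eq_mul]
    have := Finset.card_nsmul_le_sum (Finset.range (n - n / 2 + 1)) (fun k => f (k + n / 2)) (f n)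
      (fun k hk => hf (by rw [Finset.mem_range] at hk; omega))
    simpa using this
  have h3 : (n : ℝ) ≤ 2 * ((n - n / 2 + 1 : ℕ) : ℝ) := by
    have : n ≤ 2 * (n - n / 2 + 1) := by omega
    exact_mod_cast this
  nlinarith [h0 n]


lemma tendsto_log2 : Tendsto (Nat.log 2) atTop atTop := by
  rw [tendsto_atTop]
  intro b
  filter_upwards [eventually_ge_atTop (2 ^ b)] with N hN
  exact Nat.le_log_of_pow_le (by norm_num) hN

lemma littleo {k : ℕ} (hk : 0 < k) (hs : Summable (fun n : ℕ => (r k (2 ^ n) : ℝ) / 2 ^ n)) :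
    Tendsto (fun N : ℕ => (r k N : ℝ) * Real.log N / N) atTop (𝓝 0) := by
  set ρ : ℕ → ℝ := fun n => (r k (2 ^ n) : ℝ) / 2 ^ n with hρ
  have hρ0 : ∀ n, 0 ≤ ρ n := fun n => by positivity
  have hanti : Antitone ρ := by
    apply antitone_nat_of_succ_le
    intro n
    simp only [hρ]
    have h1 : (r k (2 ^ (n + 1)) : ℝ) ≤ 2 * r k (2 ^ n) := by
      have := r_two_mul_le k hk (2 ^ n)
      rw [pow_succ, mul_comm]
      exact_mod_cast this
    rw [div_le_div_iff₀ (by positivity) (by positivity)]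
    have hp : (0 : ℝ) < 2 ^ n := by positivity
    have e : (2 : ℝ) ^ (n + 1) = 2 * 2 ^ n := by rw [pow_succ]; ring
    rw [e]
    nlinarith
  have h1 := olivier ρ hanti hρ0 hs
  have h2 : Tendsto ρ atTop (𝓝 0) := hs.tendsto_atTop_zero
  have h3 : Tendsto (fun n : ℕ => 2 * ((n : ℝ) * ρ n + ρ n)) atTop (𝓝 0) := by
    simpa using (h1.add h2).const_mul 2
  have h4 := h3.comp tendsto_log2
  refine squeeze_zero' ?_ ?_ h4
  · filter_upwards [eventually_ge_atTop 1] with N hN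
    have : 0 ≤ Real.log N := Real.log_natCast_nonneg N
    positivity
  · filter_upwards [eventually_ge_atTop 1] with N hN
    simp only [Function.comp, hρ]
    set n := Nat.log 2 N with hn
    have hlo : 2 ^ n ≤ N := Nat.pow_log_le_self 2 (by omega)
    have hhi : N < 2 ^ (n + 1) := Nat.lt_pow_succ_log_self (by norm_num) N
    have hr : (r k N : ℝ) ≤ 2 * r k (2 ^ n) := by
      have a1 := r_mono k hhi.le hk
      have a2 := r_two_mul_le k hk (2 ^ n)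
      rw [pow_succ, mul_comm] at a1
      exact_mod_cast a1.trans a2
    have hlog : Real.log N ≤ (n : ℝ) + 1 := by
      have hN0 : (0 : ℝ) < N := by exact_mod_cast hN
      have : (N : ℝ) ≤ 2 ^ (n + 1) := by exact_mod_cast hhi.le
      calc Real.log N ≤ Real.log (2 ^ (n + 1)) := Real.log_le_log hN0 this
        _ = ((n : ℝ) + 1) * Real.log 2 := by rw [Real.log_pow]; push_cast; ring
        _ ≤ ((n : ℝ) + 1) * 1 := by
            gcongr
            exact Real.log_two_lt_d9.le.trans (by norm_num)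
        _ = (n : ℝ) + 1 := by ring
    have hN0 : (0 : ℝ) < N := by exact_mod_cast hN
    have hlo' : (2 : ℝ) ^ n ≤ N := by exact_mod_cast hlo
    have hlog0 : 0 ≤ Real.log N := Real.log_natCast_nonneg N
    calc (r k N : ℝ) * Real.log N / N
        ≤ (2 * r k (2 ^ n)) * ((n : ℝ) + 1) / 2 ^ n := by
          gcongr
      _ = 2 * ((n : ℝ) * ((r k (2 ^ n) : ℝ) / 2 ^ n) + (r k (2 ^ n) : ℝ) / 2 ^ n) := by
          field_simp


lemma inv_anti : Antitone (fun a : ℕ => ((a : ℝ≥0∞))⁻¹) := by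
  intro a b h
  exact ENNReal.inv_le_inv.mpr (by exact_mod_cast h)

lemma bridge_set (A : Set ℕ) (hpos : ∀ a ∈ A, 0 < a) :
    Summable (fun a : A => (1 : ℝ) / ((a : ℕ) : ℝ)) ↔ ∑' a : A, (((a : ℕ) : ℝ≥0∞))⁻¹ ≠ ⊤ := by
  have h : ∀ a : A, (((a : ℕ) : ℝ≥0∞))⁻¹ = (((((a : ℕ) : ℝ≥0))⁻¹ : ℝ≥0) : ℝ≥0∞) := by
    intro a
    have : ((a : ℕ) : ℝ≥0) ≠ 0 := by exact_mod_cast (hpos a a.2).ne'
    rw [ENNReal.coe_inv this]
    simp
  rw [tsum_congr h, ENNReal.tsum_coe_ne_top_iff_summable, ← NNReal.summable_coe]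
  simp [one_div]

lemma bridge_seq (k : ℕ) :
    Summable (fun n : ℕ => (r k (2 ^ n) : ℝ) / 2 ^ n) ↔
      ∑' n : ℕ, (r k (2 ^ n) : ℝ≥0∞) * (((2 ^ n : ℕ) : ℝ≥0∞))⁻¹ ≠ ⊤ := by
  have h : ∀ n : ℕ, (r k (2 ^ n) : ℝ≥0∞) * (((2 ^ n : ℕ) : ℝ≥0∞))⁻¹
      = (((r k (2 ^ n) : ℝ≥0) / 2 ^ n : ℝ≥0) : ℝ≥0∞) := by
    intro n
    have : ((2 : ℝ≥0) ^ n) ≠ 0 := by positivity
    rw [ENNReal.coe_div this, div_eq_mul_inv]
    simp
  rw [tsum_congr h, ENNReal.tsum_coe_ne_top_iff_summable, ← NNReal.summable_coe]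
  simp

theorem result (k : ℕ) (hk : 3 ≤ k) :
    ∃ U : Set ℕ, (∀ a ∈ U, 0 < a) ∧ ¬ HasAP k U ∧
      (∀ w : ℕ → ℝ≥0∞, Antitone w →
        (∀ A : Set ℕ, (∀ a ∈ A, 0 < a) → ¬ HasAP k A →
          ∑' a : A, w a ≤ ∑' n, (r k (2 ^ n) : ℝ≥0∞) * w (2 ^ n)) ∧
        ∑' n, (r k (2 ^ n) : ℝ≥0∞) * w (2 ^ n) ≤ 3 * w 1 + 12 * ∑' a : U, w a) ∧
      ((∀ A : Set ℕ, (∀ a ∈ A, 0 < a) → ¬ Summable (fun a : A => (1 : ℝ) / ((a : ℕ) : ℝ)) →
          HasAP k A) ↔ Summable (fun n : ℕ => (r k (2 ^ n) : ℝ) / 2 ^ n)) ∧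
      (Summable (fun n : ℕ => (r k (2 ^ n) : ℝ) / 2 ^ n) ↔
        Summable (fun a : U => (1 : ℝ) / ((a : ℕ) : ℝ))) ∧
      (Summable (fun n : ℕ => (r k (2 ^ n) : ℝ) / 2 ^ n) →
        Tendsto (fun N : ℕ => (r k N : ℝ) * Real.log N / N) atTop (𝓝 0)) := by
  have hk0 : 0 < k := by omega
  obtain ⟨T, hT, hAP, hc⟩ := exists_blocks hk0
  set U : Set ℕ := {a | ∃ j, a ∈ T j} with hU
  have hUpos : ∀ a ∈ U, 0 < a := by
    rintro a ⟨j, hj⟩
    have := (hT j a hj).1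
    omega
  have hUAP : ¬ HasAP k U := union_noAP hk hT hAP
  have hlow : ∀ w : ℕ → ℝ≥0∞, Antitone w →
      ∑' n, (r k (2 ^ n) : ℝ≥0∞) * w (2 ^ n) ≤ 3 * w 1 + 12 * ∑' a : U, w a := by
    intro w hw
    refine (dyadic_le hk0 w hw).trans ?_
    gcongr
    exact blocks_sum_le hT hc w hw
  have hUiff : Summable (fun n : ℕ => (r k (2 ^ n) : ℝ) / 2 ^ n) ↔
      Summable (fun a : U => (1 : ℝ) / ((a : ℕ) : ℝ)) := by
    rw [bridge_seq, bridge_set U hUpos]
    constructor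
    · intro h
      exact ne_top_of_le_ne_top h (upper _ inv_anti U hUpos hUAP)
    · intro h
      refine ne_top_of_le_ne_top ?_ (hlow _ inv_anti)
      refine ENNReal.add_ne_top.mpr ⟨?_, ENNReal.mul_ne_top (by norm_num) h⟩
      simp
  refine ⟨U, hUpos, hUAP, fun w hw => ⟨fun A hA hAPA => upper w hw A hA hAPA, hlow w hw⟩,
    ?_, hUiff, littleo hk0⟩
  constructor
  · intro h
    by_contra hns
    exact hUAP (h U hUpos (fun hs => hns (hUiff.mpr hs)))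
  · intro hs A hA hnA
    by_contra hAPA
    apply hnA
    rw [bridge_set A hA]
    rw [bridge_seq] at hs
    exact ne_top_of_le_ne_top hs (upper _ inv_anti A hA hAPA)

end Vale.Agent.Results.P057.UniversalSet
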