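import Vale.Agent.Results.P057.FourAPNaturalLog
import Vale.Agent.Results.P057.UniversalSet

/-!
# P057: the lower bound for `r_4(N)` and the universal progression-free set, in one statement
-/

open scoped ENNReal NNReal
open Finset Filter Topology

namespace Vale.Agent.Results.P057.A_Combined

open Vale.Agent.Results.P057.UniversalSet (HasAP r)

theorem result :
    ((∀ C : ℝ, 2 * √(2 * Real.log (9 / 5)) < C → ∃ N₀ : ℕ, ∀ N : ℕ, N₀ ≤ N →
        (N : ℝ) * Real.exp (-(C * √(Real.log N))) ≤ (r 4 N : ℝ)) ∧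
      2 * √(2 * Real.log (9 / 5)) < 2 * √(Real.log (24 / 7)) ∧
      2 * √(Real.log (24 / 7)) < 2 * √(2 * Real.log 2)) ∧
    (∀ k : ℕ, 3 ≤ k →
      ∃ U : Set ℕ, (∀ a ∈ U, 0 < a) ∧ ¬ HasAP k U ∧
        (∀ w : ℕ → ℝ≥0∞, Antitone w →
          (∀ A : Set ℕ, (∀ a ∈ A, 0 < a) → ¬ HasAP k A →
            ∑' a : A, w a ≤ ∑' n, (r k (2 ^ n) : ℝ≥0∞) * w (2 ^ n)) ∧
          ∑' n, (r k (2 ^ n) : ℝ≥0∞) * w (2 ^ n) ≤ 3 * w 1 + 12 * ∑' a : U, w a) ∧
        ((∀ A : Set ℕ, (∀ a ∈ A, 0 < a) → ¬ Summable (fun a : A => (1 : ℝ) / ((a : ℕ) : ℝ)) →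
            HasAP k A) ↔ Summable (fun n : ℕ => (r k (2 ^ n) : ℝ) / 2 ^ n)) ∧
        (Summable (fun n : ℕ => (r k (2 ^ n) : ℝ) / 2 ^ n) ↔
          Summable (fun a : U => (1 : ℝ) / ((a : ℕ) : ℝ))) ∧
        (Summable (fun n : ℕ => (r k (2 ^ n) : ℝ) / 2 ^ n) →
          Tendsto (fun N : ℕ => (r k N : ℝ) * Real.log N / N) atTop (𝓝 0))) := by
  have hr : Vale.Agent.Results.P057.FourAPNaturalLog.r = r := rfl
  refine ⟨?_, fun k hk => Vale.Agent.Results.P057.UniversalSet.result k hk⟩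
  have h := Vale.Agent.Results.P057.FourAPNaturalLog.result
  rw [hr] at h
  exact h

end Vale.Agent.Results.P057.A_Combined
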