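import Vale.Agent.Lib.P057.Param
import Vale.Agent.Lib.P057.Asym

/-!
# P057: a new lower bound for `r_4(N)`

For every `C > 2 √(2 log₂(9/5)) = 2.6046…` and all large `N` there is a subset of `{1, …, N}` without four-term
arithmetic progressions of size at least `N · 2^(-C √(log₂ N))`. The best exponent constant known for `k = 4`
was the one for `k = 3`, namely `2 √(log₂(24/7)) = 2.6665…`.
-/

namespace Vale.Agent.Results.P057.FourAPLowerBound

open Vale.Agent.Lib.P057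

theorem result :
    (∀ C : ℝ, 2 * √(2 * Real.logb 2 (9 / 5)) < C → ∃ N₀ : ℕ, ∀ N : ℕ, N₀ ≤ N →
      ∃ A : Finset ℕ, A ⊆ Finset.Icc 1 N ∧
        (∀ a d : ℕ, 0 < d → ¬(a ∈ A ∧ a + d ∈ A ∧ a + 2 * d ∈ A ∧ a + 3 * d ∈ A)) ∧
        (N : ℝ) * 2 ^ (-(C * √(Real.logb 2 N))) ≤ A.card) ∧
    2 * √(2 * Real.logb 2 (9 / 5)) < 2 * √(Real.logb 2 (24 / 7)) := by
  constructor
  · intro C hC
    obtain ⟨N₀, h⟩ := asym C hC
    refine ⟨N₀, fun N hN => ?_⟩
    obtain ⟨n, u, hn, hu, hNu, hNn, hmain⟩ := h N hN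
    obtain ⟨A, hA1, hA2, hA3⟩ := param_bound n N u hn hu hNu hNn
    refine ⟨A, hA1, hA2, ?_⟩
    set E : ℝ := (2 : ℝ) ^ (C * √(Real.logb 2 N)) with hE
    have hEpos : 0 < E := Real.rpow_pos_of_pos (by norm_num) _
    rw [Real.rpow_neg (by norm_num), ← hE]
    have h95 : ((5 : ℝ) / 9) ^ n * (9 / 5) ^ n = 1 := by
      rw [← mul_pow]; norm_num
    have hpos : (0 : ℝ) < (9 / 5) ^ n := by positivity
    have h1 : (N : ℝ) ≤ E * A.card := by
      calc (N : ℝ) = ((N : ℝ) * (5 / 9) ^ n) * (9 / 5) ^ n := by rw [mul_assoc, h95, mul_one]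
        _ ≤ (16 * n * (u : ℝ) ^ 2 * A.card) * (9 / 5) ^ n :=
            mul_le_mul_of_nonneg_right hA3 hpos.le
        _ = ((16 * n * (u : ℝ) ^ 2) * (9 / 5) ^ n) * A.card := by ring
        _ ≤ E * A.card := mul_le_mul_of_nonneg_right hmain (by positivity)
    rw [← div_eq_mul_inv, div_le_iff₀ hEpos]
    linarith
  · have h2 : (2 : ℝ) * Real.logb 2 (9 / 5) = Real.logb 2 (81 / 25) := by
      have : (81 : ℝ) / 25 = (9 / 5) ^ 2 := by norm_num
      rw [this, Real.logb_pow]; norm_num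
    rw [h2]
    have h3 : Real.logb 2 (81 / 25) < Real.logb 2 (24 / 7) :=
      Real.logb_lt_logb (by norm_num) (by norm_num) (by norm_num)
    have h4 : 0 ≤ Real.logb 2 (81 / 25) := Real.logb_nonneg (by norm_num) (by norm_num)
    have := Real.sqrt_lt_sqrt h4 h3
    linarith

end Vale.Agent.Results.P057.FourAPLowerBound
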