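import Vale.Agent.Results.P057.FourAPLowerBound

/-!
# P057, Q2: the lower bound for `r_4(N)` in the conventions of the problem file

`r k N` is `r_k(N)`. With natural logarithms: for every `C > 2 √(2 log(9/5)) = 2.1685…` and all large `N`,
`r_4(N) ≥ N exp(-C √(log N))`. The constants available before were `2 √(log(24/7)) = 2.2200…` (from `r_4 ≥ r_3`)
and `2 √(2 log 2) = 2.3548…`.
-/

namespace Vale.Agent.Results.P057.FourAPNaturalLog

/-- `r_k(N)`: the largest cardinality of a subset of `{1, …, N}` containing no `k`-term arithmetic progression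
`a, a + d, …, a + (k-1) d` with `d > 0`. -/
noncomputable def r (k N : ℕ) : ℕ :=
  sSup {m : ℕ | ∃ S : Finset ℕ, S ⊆ Finset.Icc 1 N ∧
    (¬ ∃ a d : ℕ, 0 < d ∧ ∀ i < k, a + i * d ∈ S) ∧ S.card = m}

theorem card_le_r {k N : ℕ} {S : Finset ℕ} (hS : S ⊆ Finset.Icc 1 N)
    (hAP : ¬ ∃ a d : ℕ, 0 < d ∧ ∀ i < k, a + i * d ∈ S) : S.card ≤ r k N := by
  refine le_csSup ⟨N, ?_⟩ ⟨S, hS, hAP, rfl⟩
  rintro m ⟨T, hT, -, rfl⟩
  simpa using Finset.card_le_card hT

theorem result :
    (∀ C : ℝ, 2 * √(2 * Real.log (9 / 5)) < C → ∃ N₀ : ℕ, ∀ N : ℕ, N₀ ≤ N →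
      (N : ℝ) * Real.exp (-(C * √(Real.log N))) ≤ (r 4 N : ℝ)) ∧
    2 * √(2 * Real.log (9 / 5)) < 2 * √(Real.log (24 / 7)) ∧
    2 * √(Real.log (24 / 7)) < 2 * √(2 * Real.log 2) := by
  have hl2 : 0 < Real.log 2 := Real.log_pos (by norm_num)
  have hs2 : 0 < √(Real.log 2) := Real.sqrt_pos.mpr hl2
  have hss : √(Real.log 2) * √(Real.log 2) = Real.log 2 := Real.mul_self_sqrt hl2.le
  refine ⟨?_, ?_, ?_⟩
  · intro C hC
    have key : 2 * √(2 * Real.logb 2 (9 / 5)) < C / √(Real.log 2) := by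
      rw [lt_div_iff₀ hs2]
      have : √(2 * Real.logb 2 (9 / 5)) * √(Real.log 2) = √(2 * Real.log (9 / 5)) := by
        rw [← Real.sqrt_mul (by
          have : 0 ≤ Real.logb 2 (9 / 5) := Real.logb_nonneg (by norm_num) (by norm_num)
          positivity)]
        congr 1
        unfold Real.logb
        field_simp
      calc 2 * √(2 * Real.logb 2 (9 / 5)) * √(Real.log 2)
          = 2 * (√(2 * Real.logb 2 (9 / 5)) * √(Real.log 2)) := by ring
        _ = 2 * √(2 * Real.log (9 / 5)) := by rw [this]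
        _ < C := hC
    obtain ⟨N₀, h⟩ := FourAPLowerBound.result.1 _ key
    refine ⟨N₀, fun N hN => ?_⟩
    obtain ⟨A, hA1, hA2, hA3⟩ := h N hN
    have hr : A.card ≤ r 4 N := by
      apply card_le_r hA1
      rintro ⟨a, d, hd, H⟩
      apply hA2 a d hd
      refine ⟨?_, ?_, ?_, ?_⟩
      · simpa using H 0 (by norm_num)
      · simpa using H 1 (by norm_num)
      · simpa using H 2 (by norm_num)
      · simpa using H 3 (by norm_num)
    have hexp : (2 : ℝ) ^ (-(C / √(Real.log 2) * √(Real.logb 2 N))) =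
        Real.exp (-(C * √(Real.log N))) := by
      rw [Real.rpow_def_of_pos (by norm_num)]
      congr 1
      have h1 : √(Real.logb 2 N) = √(Real.log N) / √(Real.log 2) := by
        unfold Real.logb
        rw [Real.sqrt_div' _ hl2.le]
      rw [h1]
      field_simp
      rw [show √(Real.log 2) ^ 2 = Real.log 2 from Real.sq_sqrt hl2.le]
      ring
    rw [hexp] at hA3
    exact hA3.trans (by exact_mod_cast hr)
  · have h2 : (2 : ℝ) * Real.log (9 / 5) = Real.log (81 / 25) := by
      have : (81 : ℝ) / 25 = (9 / 5) ^ 2 := by norm_num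
      rw [this, Real.log_pow]; norm_num
    rw [h2]
    have h3 : Real.log (81 / 25) < Real.log (24 / 7) :=
      Real.log_lt_log (by norm_num) (by norm_num)
    have h4 : 0 ≤ Real.log (81 / 25) := Real.log_nonneg (by norm_num)
    have := Real.sqrt_lt_sqrt h4 h3
    linarith
  · have h2 : (2 : ℝ) * Real.log 2 = Real.log 4 := by
      have : (4 : ℝ) = 2 ^ 2 := by norm_num
      rw [this, Real.log_pow]; norm_num
    rw [h2]
    have h3 : Real.log (24 / 7) < Real.log 4 :=
      Real.log_lt_log (by norm_num) (by norm_num)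
    have h4 : 0 ≤ Real.log (24 / 7) := Real.log_nonneg (by norm_num)
    have := Real.sqrt_lt_sqrt h4 h3
    linarith

end Vale.Agent.Results.P057.FourAPNaturalLog
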